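import Crest.Agent.X262.Vb.Defs
import Crest.Agent.X262.Bub96.NormB

/-! # Row 262, road B: `ExNrm` (helper37, from `Bub96.exists_nrm`) -/

set_option autoImplicit false

namespace Crest.Agent.X262.Vb37

open Crest.Agent.X277.BD

theorem exNrm : Vb.ExNrm := by
  intro J _ _ io _ _ d M K _ _ _ _ ξ N
  obtain ⟨L, _, _, _, _, _, n, η, h1, h2⟩ := Bub96.exists_nrm ξ N
  exact ⟨L, inferInstance, inferInstance, Algebra.EssFiniteType.comp ℂ K L, _, n, η,
    by rw [deg_tower]; exact Module.finrank_pos, h1, h2⟩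

end Crest.Agent.X262.Vb37
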