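import Crest.Agent.X262.Vb37.Univ
import Crest.Agent.X262.Vb10.Gw

/-! # Row 262, road B: the Moebius interface of `Vb10` (helper37) -/

set_option autoImplicit false

namespace Crest.Agent.X262.Vb37

open Crest.Agent.X262.Vb

theorem mobI {J : Type} [Fintype J] [DecidableEq J] (io : J → Type) [∀ j, Fintype (io j)]
    [∀ j, DecidableEq (io j)] (d : J → ℕ) : Vb10.Mob io d where
  trans := eqv_trans
  symm := eqv_symm
  map := eqv_map
  cfg := eqv_cfg
  nrm := fun h hn => eqv_nrmUp h hn
  cfg_map ξ α := cfg_map α ξ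
  nz ξ q := nz_pt ξ (ξ.x q)
  uniq := univ_unique

end Crest.Agent.X262.Vb37
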